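import Vale.Agent.Lib.P054.GenLines

/-!
Sets on few parallel lines in `ℝ^d`: pinned bound, for every `d ≥ 3`.
-/

open Finset

open scoped Classical

namespace Vale.Agent.Results.P054.A_pinned

open Vale.Agent.Lib.P054

/-- First part, in any real inner product space: let `e` be a unit vector, `P` a finite set, and
let `q0` and every `q ∈ Q` carry at least `m ≥ 2` points of `P` on their lines parallel to `e`.
If each point of `P` on the line of `q0` has at most `h` distinct squared distances to the points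
of `P`, then the number of distinct values of `‖q0 - q‖ ^ 2 - ⟪q0 - q, e⟫ ^ 2`, `q ∈ Q`, times
`m ^ 2`, is at most `256 h ^ 2`.

Second part: for every `d ≥ 3` there is `C > 0` such that for every unit vector `v` of `ℝ^d` and
every finite nonempty `P ⊂ ℝ^d` with `n` points on `u` lines parallel to `v`, where `n ≥ 2 u`, some
`x ∈ P` satisfies `n ^ (2 d - 3) ≤ C * u ^ (2 d - 4) * (|D_x(P)| + 1) ^ (2 d - 3)`, where `D_x(P)`
is the set of distances from `x` to the other points of `P`. -/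
theorem result {E : Type*} [NormedAddCommGroup E] [InnerProductSpace ℝ E] :
    (∀ (e : E), ‖e‖ = 1 → ∀ (Q : Finset E) (A : E → Finset ℝ) (P : Finset E) (q0 : E) (m : ℕ),
      2 ≤ m → (∀ q ∈ Q, m ≤ (A q).card) → m ≤ (A q0).card →
      (∀ q ∈ Q, ∀ x ∈ A q, q + x • e ∈ P) → (∀ x ∈ A q0, q0 + x • e ∈ P) →
      ∀ h : ℕ, (∀ x ∈ A q0, (P.image (fun q => ‖(q0 + x • e) - q‖ ^ 2)).card ≤ h) →
      (Q.image (fun q => ‖q0 - q‖ ^ 2 - (inner ℝ (q0 - q) e) ^ 2)).card * m ^ 2 ≤ 256 * h ^ 2) ∧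
    (∀ d : ℕ, 3 ≤ d → ∃ C : ℝ, 0 < C ∧ ∀ (v : EuclideanSpace ℝ (Fin d)), ‖v‖ = 1 →
      ∀ P : Finset (EuclideanSpace ℝ (Fin d)), P.Nonempty →
        2 * (P.image (fun p => p - (inner ℝ v p) • v)).card ≤ P.card →
        ∃ x ∈ P, (P.card : ℝ) ^ (2 * d - 3) ≤ C *
          (((P.image (fun p => p - (inner ℝ v p) • v)).card : ℝ) ^ (2 * d - 4) *
          ((((P.erase x).image (fun y => ‖y - x‖)).card : ℝ) + 1) ^ (2 * d - 3))) := by
  refine ⟨?_, ?_⟩
  · intro e he Q A P q0 m hm hQ h0 hP hP0 h hh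
    exact pinned_full e he Q A P q0 m hm hQ h0 hP hP0 h hh
  · intro d hd
    exact lines_Rd d hd

end Vale.Agent.Results.P054.A_pinned
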