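import Vale.Agent.Lib.P054.Fibers

/-!
Distinct distances of sets containing a prism, in any real inner product space.
-/

open Finset

open scoped Classical

namespace Vale.Agent.Results.P054.A_prism

open Vale.Agent.Lib.P054

/-- Let `e` be a unit vector of a real inner product space and `P` a finite set.
First part: if every `q` of a finite set `Q` has at least `m ≥ 2` of the points `q + x • e`,
`x ∈ X`, in `P`, then the number of squared distances of the projection of `Q` along `e`,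
times `m ^ 4`, is at most `512 * |X| ^ 2 * (|Δ(P)| + 1) ^ 2`.
Second part: if `P` contains the prism `B + A • e`, with `B` nonempty in a hyperplane orthogonal
to `e` and `|A| ≥ 2`, then `(|Δ(B)| + 1) * |A| ^ 2 ≤ 512 * (|Δ(P)| + 1) ^ 2` and
`(|Δ(B)| + 1) ^ 2 * |A| ^ 2 ≤ 512 * (|Δ(P)| + 1) ^ 3`. -/
theorem result {E : Type*} [NormedAddCommGroup E] [InnerProductSpace ℝ E]
    (e : E) (he : ‖e‖ = 1) (P : Finset E) :
    (∀ (Q : Finset E) (X : Finset ℝ) (m : ℕ), 2 ≤ m →
      (∀ q ∈ Q, m ≤ (X.filter (fun x => q + x • e ∈ P)).card) →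
      (horizSet e Q).card * m ^ 4 ≤ 512 * (X.card ^ 2 * ((distSet P).card + 1) ^ 2)) ∧
    (∀ (B : Finset E) (A : Finset ℝ), B.Nonempty → 2 ≤ A.card →
      (∀ b ∈ B, ∀ b' ∈ B, inner ℝ (b - b') e = (0 : ℝ)) →
      (∀ b ∈ B, ∀ a ∈ A, b + a • e ∈ P) →
      ((distSet B).card + 1) * A.card ^ 2 ≤ 512 * ((distSet P).card + 1) ^ 2 ∧
      ((distSet B).card + 1) ^ 2 * A.card ^ 2 ≤ 512 * ((distSet P).card + 1) ^ 3) := by
  refine ⟨fun Q X m hm hQ => ?_, fun B A hne hA hB hP => ?_⟩
  · exact fiber_main e he Q X P m hm hQ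
  · exact prism_bound e he B A P hne hA hB hP

end Vale.Agent.Results.P054.A_prism
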