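import Vale.Agent.Lib.P054.Box

/-!
Sets in `ℝ³` that are dense in a product of a planar set and a set of heights.
-/

open Finset

open scoped Classical

namespace Vale.Agent.Results.P054.B_box

open Vale.Agent.Lib.P054

/-- Let `K ≥ 1` be a constant for which the planar Guth-Katz bound `|B| ≤ K log |B| |Δ(B)|` holds
for all planar sets `B` with `|B| ≥ 2`.  Then every `P ⊂ ℝ³` with `n ≥ 2` points, whose points
have `u` distinct projections to the first two coordinates and `k` distinct third coordinates,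
satisfies `n ^ 6 ≤ 65536 K ^ 2 (log n) ^ 2 u ^ 4 k ^ 4 (|Δ(P)| + 1) ^ 3`. -/
theorem result (K : ℝ) (hK : 1 ≤ K)
    (GK : ∀ B : Finset (EuclideanSpace ℝ (Fin 2)), 2 ≤ B.card →
      (B.card : ℝ) ≤ K * Real.log (B.card : ℝ) * ((distSet B).card : ℝ))
    (P : Finset (EuclideanSpace ℝ (Fin 3))) (hn : 2 ≤ P.card) :
    (P.card : ℝ) ^ 6 ≤ 65536 * K ^ 2 * Real.log (P.card : ℝ) ^ 2 *
      ((P.image (fun p => (p 0, p 1))).card : ℝ) ^ 4 *
      ((P.image (fun p => (p 2 : ℝ))).card : ℝ) ^ 4 *
      (((distSet P).card : ℝ) + 1) ^ 3 := by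
  have h := box_bound K hK GK P hn
  rw [card_image_proj]
  exact h

end Vale.Agent.Results.P054.B_box
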