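import Vale.Agent.Results.P054.A_circle
import Vale.Agent.Results.P054.A_pinned
import Vale.Agent.Results.P054.A_prism
import Vale.Agent.Results.P054.B_box

/-!
All partial results on the higher-dimensional distinct distances conjecture, in one statement.
-/

open Finset

open scoped Classical

namespace Vale.Agent.Results.P054.AAA_union

open Vale.Agent.Lib.P054

/-- Conjunction of four results.  First: pinned distances for sets whose pairs of points avoid rich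
intersections of two spheres.  Second: pinned distances for sets on few parallel lines, in every
dimension `d ≥ 3`.  Third: prisms, in any real inner product space.  Fourth: with the planar
Guth-Katz bound as hypothesis, sets in `ℝ³` dense in a product of a planar set and a set of
heights. -/
theorem result {E : Type*} [NormedAddCommGroup E] [InnerProductSpace ℝ E] :
    (    (∀ (d D : ℕ), 2 ≤ D → ∀ (W : Submodule ℝ (EuclideanSpace ℝ (Fin d))),
      Module.finrank ℝ W = D → ∀ (a0 : EuclideanSpace ℝ (Fin d))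
      (A P : Finset (EuclideanSpace ℝ (Fin d))), A ⊆ P → (∀ a ∈ A, a - a0 ∈ W) → 2 ≤ A.card →
      ∀ s : ℕ, (∀ a ∈ A, ∀ b ∈ A, a ≠ b →
        2 * (P.filter (fun q => s < (P.filter (fun y =>
          dist a y = dist a q ∧ dist b y = dist b q)).card)).card ≤ P.card) →
      ∃ x ∈ A,
        (P.card : ℝ) < 16 * s * (((P.erase x).image (fun q => dist x q)).card + 1) ∨
        (A.card : ℝ) ^ ((D : ℝ)⁻¹) * P.card ≤
          143360 * D * s * (((P.erase x).image (fun q => dist x q)).card + 1) ^ 2) ∧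
    (∀ d : ℕ, 2 ≤ d → ∀ A P : Finset (EuclideanSpace ℝ (Fin d)), A ⊆ P → 2 ≤ A.card →
      P.card ≤ 2 * A.card →
      ∀ s : ℕ, (∀ a ∈ A, ∀ b ∈ A, a ≠ b →
        2 * (P.filter (fun q => s < (P.filter (fun y =>
          dist a y = dist a q ∧ dist b y = dist b q)).card)).card ≤ P.card) →
      ∃ x ∈ A,
        (P.card : ℝ) < 16 * s * (((P.erase x).image (fun q => dist x q)).card + 1) ∨
        (P.card : ℝ) ^ (1 + (d : ℝ)⁻¹) ≤
          286720 * d * s * (((P.erase x).image (fun q => dist x q)).card + 1) ^ 2) ∧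
    (∀ (d : ℕ) (K : ℝ), 3 ≤ d → 1 ≤ K → ∀ A P : Finset (EuclideanSpace ℝ (Fin d)), A ⊆ P →
      2 ≤ A.card → P.card ≤ 2 * A.card →
      ∀ s : ℕ, (s : ℝ) ≤ K * (P.card : ℝ) ^ (1 - 3 / (d : ℝ)) →
      (∀ a ∈ A, ∀ b ∈ A, a ≠ b →
        2 * (P.filter (fun q => s < (P.filter (fun y =>
          dist a y = dist a q ∧ dist b y = dist b q)).card)).card ≤ P.card) →
      ∃ x ∈ A, (P.card : ℝ) ^ (2 / (d : ℝ)) ≤
        573440 * d * K * ((P.erase x).image (fun q => dist x q)).card)) ∧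
    (    (∀ (e : E), ‖e‖ = 1 → ∀ (Q : Finset E) (A : E → Finset ℝ) (P : Finset E) (q0 : E) (m : ℕ),
      2 ≤ m → (∀ q ∈ Q, m ≤ (A q).card) → m ≤ (A q0).card →
      (∀ q ∈ Q, ∀ x ∈ A q, q + x • e ∈ P) → (∀ x ∈ A q0, q0 + x • e ∈ P) →
      ∀ h : ℕ, (∀ x ∈ A q0, (P.image (fun q => ‖(q0 + x • e) - q‖ ^ 2)).card ≤ h) →
      (Q.image (fun q => ‖q0 - q‖ ^ 2 - (inner ℝ (q0 - q) e) ^ 2)).card * m ^ 2 ≤ 256 * h ^ 2) ∧
    (∀ d : ℕ, 3 ≤ d → ∃ C : ℝ, 0 < C ∧ ∀ (v : EuclideanSpace ℝ (Fin d)), ‖v‖ = 1 →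
      ∀ P : Finset (EuclideanSpace ℝ (Fin d)), P.Nonempty →
        2 * (P.image (fun p => p - (inner ℝ v p) • v)).card ≤ P.card →
        ∃ x ∈ P, (P.card : ℝ) ^ (2 * d - 3) ≤ C *
          (((P.image (fun p => p - (inner ℝ v p) • v)).card : ℝ) ^ (2 * d - 4) *
          ((((P.erase x).image (fun y => ‖y - x‖)).card : ℝ) + 1) ^ (2 * d - 3)))) ∧
    (∀ (e : E), ‖e‖ = 1 → ∀ (P : Finset E),
      (∀ (Q : Finset E) (X : Finset ℝ) (m : ℕ), 2 ≤ m →
        (∀ q ∈ Q, m ≤ (X.filter (fun x => q + x • e ∈ P)).card) →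
        (horizSet e Q).card * m ^ 4 ≤ 512 * (X.card ^ 2 * ((distSet P).card + 1) ^ 2)) ∧
      (∀ (B : Finset E) (A : Finset ℝ), B.Nonempty → 2 ≤ A.card →
        (∀ b ∈ B, ∀ b' ∈ B, inner ℝ (b - b') e = (0 : ℝ)) →
        (∀ b ∈ B, ∀ a ∈ A, b + a • e ∈ P) →
        ((distSet B).card + 1) * A.card ^ 2 ≤ 512 * ((distSet P).card + 1) ^ 2 ∧
        ((distSet B).card + 1) ^ 2 * A.card ^ 2 ≤ 512 * ((distSet P).card + 1) ^ 3)) ∧
    (∀ K : ℝ, 1 ≤ K →
      (∀ B : Finset (EuclideanSpace ℝ (Fin 2)), 2 ≤ B.card →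
        (B.card : ℝ) ≤ K * Real.log (B.card : ℝ) * ((distSet B).card : ℝ)) →
      ∀ P : Finset (EuclideanSpace ℝ (Fin 3)), 2 ≤ P.card →
      (P.card : ℝ) ^ 6 ≤ 65536 * K ^ 2 * Real.log (P.card : ℝ) ^ 2 *
        ((P.image (fun p => (p 0, p 1))).card : ℝ) ^ 4 *
        ((P.image (fun p => (p 2 : ℝ))).card : ℝ) ^ 4 *
        (((distSet P).card : ℝ) + 1) ^ 3) :=
  ⟨Vale.Agent.Results.P054.A_circle.result,
    Vale.Agent.Results.P054.A_pinned.result,
    fun e he P => Vale.Agent.Results.P054.A_prism.result e he P,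
    fun K hK GK P hn => Vale.Agent.Results.P054.B_box.result K hK GK P hn⟩

end Vale.Agent.Results.P054.AAA_union
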