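import Vale.Agent.Lib.P054.Geo3

/-!
Pinned distances for point sets with few points on the typical intersection of two spheres centred
at points of the set, in every dimension, without logarithmic loss.
-/

open Finset

open scoped Classical

namespace Vale.Agent.Results.P054.A_circle

open Vale.Agent.Lib.P054

/-- The hypothesis on a pair `a ≠ b` of centres throughout: at most half of the points `q` of `P`
lie on an intersection of a sphere about `a` with a sphere about `b` that holds more than `s` points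
of `P`.  (In particular this holds if no such intersection holds more than `s` points of `P`.)
For `d = 3` the intersections are the circles with axis through `a` and `b`.  Below `t = |D_x(P)| + 1`
where `D_x(P)` is the set of distances from `x` to the other points of `P`.

Part 1.  If `A ⊆ P`, `|A| ≥ 2`, `A` lies in a translate of a subspace of dimension `D ≥ 2` and the
hypothesis holds for all `a ≠ b` in `A`, then some `x ∈ A` has `|P| < 16 s t` or
`|A| ^ (1 / D) * |P| ≤ 143360 D s t ^ 2`.

Part 2.  If `A ⊆ P` in `ℝ^d`, `d ≥ 2`, `|A| ≥ 2`, `|P| ≤ 2 |A|` and the hypothesis holds for all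
`a ≠ b` in `A`, then with `n = |P|` some `x ∈ A` has `n < 16 s t` or
`n ^ (1 + 1 / d) ≤ 286720 d s t ^ 2`.

Part 3.  If moreover `d ≥ 3`, `K ≥ 1` and `s ≤ K n ^ (1 - 3 / d)`, then some `x ∈ A` has
`n ^ (2 / d) ≤ 573440 d K |D_x(P)|`.  This is the conjectured bound, in pinned form. -/
theorem result :
    (∀ (d D : ℕ), 2 ≤ D → ∀ (W : Submodule ℝ (EuclideanSpace ℝ (Fin d))),
      Module.finrank ℝ W = D → ∀ (a0 : EuclideanSpace ℝ (Fin d))
      (A P : Finset (EuclideanSpace ℝ (Fin d))), A ⊆ P → (∀ a ∈ A, a - a0 ∈ W) → 2 ≤ A.card →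
      ∀ s : ℕ, (∀ a ∈ A, ∀ b ∈ A, a ≠ b →
        2 * (P.filter (fun q => s < (P.filter (fun y =>
          dist a y = dist a q ∧ dist b y = dist b q)).card)).card ≤ P.card) →
      ∃ x ∈ A,
        (P.card : ℝ) < 16 * s * (((P.erase x).image (fun q => dist x q)).card + 1) ∨
        (A.card : ℝ) ^ ((D : ℝ)⁻¹) * P.card ≤
          143360 * D * s * (((P.erase x).image (fun q => dist x q)).card + 1) ^ 2) ∧
    (∀ d : ℕ, 2 ≤ d → ∀ A P : Finset (EuclideanSpace ℝ (Fin d)), A ⊆ P → 2 ≤ A.card →
      P.card ≤ 2 * A.card →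
      ∀ s : ℕ, (∀ a ∈ A, ∀ b ∈ A, a ≠ b →
        2 * (P.filter (fun q => s < (P.filter (fun y =>
          dist a y = dist a q ∧ dist b y = dist b q)).card)).card ≤ P.card) →
      ∃ x ∈ A,
        (P.card : ℝ) < 16 * s * (((P.erase x).image (fun q => dist x q)).card + 1) ∨
        (P.card : ℝ) ^ (1 + (d : ℝ)⁻¹) ≤
          286720 * d * s * (((P.erase x).image (fun q => dist x q)).card + 1) ^ 2) ∧
    (∀ (d : ℕ) (K : ℝ), 3 ≤ d → 1 ≤ K → ∀ A P : Finset (EuclideanSpace ℝ (Fin d)), A ⊆ P →
      2 ≤ A.card → P.card ≤ 2 * A.card →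
      ∀ s : ℕ, (s : ℝ) ≤ K * (P.card : ℝ) ^ (1 - 3 / (d : ℝ)) →
      (∀ a ∈ A, ∀ b ∈ A, a ≠ b →
        2 * (P.filter (fun q => s < (P.filter (fun y =>
          dist a y = dist a q ∧ dist b y = dist b q)).card)).card ≤ P.card) →
      ∃ x ∈ A, (P.card : ℝ) ^ (2 / (d : ℝ)) ≤
        573440 * d * K * ((P.erase x).image (fun q => dist x q)).card) := by
  have key : ∀ (d D : ℕ), 2 ≤ D → ∀ (W : Submodule ℝ (EuclideanSpace ℝ (Fin d))),
      Module.finrank ℝ W = D → ∀ (a0 : EuclideanSpace ℝ (Fin d))
      (A P : Finset (EuclideanSpace ℝ (Fin d))), A ⊆ P → (∀ a ∈ A, a - a0 ∈ W) → 2 ≤ A.card →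
      ∀ s : ℕ, (∀ a ∈ A, ∀ b ∈ A, a ≠ b →
        2 * (P.filter (fun q => s < (P.filter (fun y =>
          dist a y = dist a q ∧ dist b y = dist b q)).card)).card ≤ P.card) →
      ∃ x ∈ A,
        (P.card : ℝ) < 16 * s * (((P.erase x).image (fun q => dist x q)).card + 1) ∨
        (A.card : ℝ) ^ ((D : ℝ)⁻¹) * P.card ≤
          143360 * D * s * (((P.erase x).image (fun q => dist x q)).card + 1) ^ 2 := by
    intro d D hD W hW a0 A P hAP hAW hm s hcell
    have hAne : A.Nonempty := Finset.card_pos.mp (by omega)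
    obtain ⟨x, hx, hmax⟩ := Finset.exists_max_image A
      (fun y => ((P.erase y).image (fun q => dist y q)).card) hAne
    refine ⟨x, hx, ?_⟩
    set h := ((P.erase x).image (fun q => dist x q)).card + 1 with hh
    have hs : 1 ≤ s := by
      by_contra hs0
      have hs00 : s = 0 := by omega
      obtain ⟨a, ha, b, hb, hab⟩ := Finset.one_lt_card.mp (by omega : 1 < A.card)
      have h1 := hcell a ha b hb hab
      have h2 : P.filter (fun q => s < (P.filter (fun y =>
          dist a y = dist a q ∧ dist b y = dist b q)).card) = P := by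
        apply Finset.filter_true_of_mem
        intro q hq
        rw [hs00]
        exact Finset.card_pos.mpr ⟨q, Finset.mem_filter.mpr ⟨hq, rfl, rfl⟩⟩
      rw [h2] at h1
      have h3 : 0 < P.card := Finset.card_pos.mpr ⟨a, hAP ha⟩
      omega
    have hpin : ∀ a ∈ A, (pinSet P a).card ≤ h := by
      intro a ha
      have h1 : (pinSet P a).card ≤ ((P.erase a).image (fun q => dist a q)).card + 1 := by
        refine le_trans (card_pinSet_le_G P a) (Nat.add_le_add_right (Finset.card_le_card ?_) 1)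
        intro y hy
        simp only [Finset.mem_image, Finset.mem_erase] at hy ⊢
        obtain ⟨q, hq, rfl⟩ := hy
        exact ⟨q, hq, by rw [dist_eq_norm, norm_sub_rev]⟩
      have h2 := hmax a ha
      omega
    by_cases hbig : 16 * s * h ≤ P.card
    · right
      have hmain := flat_main3 W D hD hW.le a0 A P hAP hAW hm s h hs hcell hpin hbig
      have e : ((h : ℕ) : ℝ) = (((P.erase x).image (fun q => dist x q)).card : ℝ) + 1 := by
        rw [hh]
        push_cast
        ring
      rw [e] at hmain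
      exact hmain
    · left
      have h1 : P.card < 16 * s * h := not_le.mp hbig
      have h2 : (P.card : ℝ) < ((16 * s * h : ℕ) : ℝ) := by exact_mod_cast h1
      rw [hh] at h2
      push_cast at h2
      exact h2
  have part2 : ∀ d : ℕ, 2 ≤ d → ∀ A P : Finset (EuclideanSpace ℝ (Fin d)), A ⊆ P → 2 ≤ A.card →
      P.card ≤ 2 * A.card →
      ∀ s : ℕ, (∀ a ∈ A, ∀ b ∈ A, a ≠ b →
        2 * (P.filter (fun q => s < (P.filter (fun y =>
          dist a y = dist a q ∧ dist b y = dist b q)).card)).card ≤ P.card) →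
      ∃ x ∈ A,
        (P.card : ℝ) < 16 * s * (((P.erase x).image (fun q => dist x q)).card + 1) ∨
        (P.card : ℝ) ^ (1 + (d : ℝ)⁻¹) ≤
          286720 * d * s * (((P.erase x).image (fun q => dist x q)).card + 1) ^ 2 := by
    intro d hd A P hAP hA2 hPA s hcell
    have hW : Module.finrank ℝ (⊤ : Submodule ℝ (EuclideanSpace ℝ (Fin d))) = d := by
      rw [finrank_top, finrank_euclideanSpace, Fintype.card_fin]
    obtain ⟨x, hx, h1⟩ := key d d hd ⊤ hW 0 A P hAP (fun a _ => Submodule.mem_top) hA2 s hcell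
    refine ⟨x, hx, ?_⟩
    rcases h1 with h1 | h1
    · exact Or.inl h1
    · right
      have hm : (0 : ℝ) < A.card := by
        have : 0 < A.card := by omega
        exact_mod_cast this
      have hn : (0 : ℝ) < P.card := by
        have h5 : A.card ≤ P.card := Finset.card_le_card hAP
        have : 0 < P.card := by omega
        exact_mod_cast this
      have hPAR : (P.card : ℝ) ≤ 2 * A.card := by exact_mod_cast hPA
      have hdR : (2 : ℝ) ≤ d := by exact_mod_cast hd
      have hθ0 : (0 : ℝ) ≤ (d : ℝ)⁻¹ := by positivity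
      have hθ1 : (d : ℝ)⁻¹ ≤ 1 := by
        rw [inv_eq_one_div, div_le_one (by linarith)]
        linarith
      have h2 : (P.card : ℝ) ^ ((d : ℝ)⁻¹) ≤ 2 * (A.card : ℝ) ^ ((d : ℝ)⁻¹) := by
        calc (P.card : ℝ) ^ ((d : ℝ)⁻¹) ≤ (2 * (A.card : ℝ)) ^ ((d : ℝ)⁻¹) :=
              Real.rpow_le_rpow hn.le hPAR hθ0
          _ = (2 : ℝ) ^ ((d : ℝ)⁻¹) * (A.card : ℝ) ^ ((d : ℝ)⁻¹) :=
              Real.mul_rpow (by norm_num) hm.le
          _ ≤ 2 * (A.card : ℝ) ^ ((d : ℝ)⁻¹) := by
              apply mul_le_mul_of_nonneg_right _ (by positivity)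
              calc (2 : ℝ) ^ ((d : ℝ)⁻¹) ≤ (2 : ℝ) ^ (1 : ℝ) :=
                    Real.rpow_le_rpow_of_exponent_le (by norm_num) hθ1
                _ = 2 := Real.rpow_one 2
      rw [add_comm, Real.rpow_add hn, Real.rpow_one]
      calc (P.card : ℝ) ^ ((d : ℝ)⁻¹) * P.card
          ≤ (2 * (A.card : ℝ) ^ ((d : ℝ)⁻¹)) * P.card :=
            mul_le_mul_of_nonneg_right h2 hn.le
        _ = 2 * ((A.card : ℝ) ^ ((d : ℝ)⁻¹) * P.card) := by ring
        _ ≤ 2 * (143360 * d * s * (((P.erase x).image (fun q => dist x q)).card + 1) ^ 2) :=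
            mul_le_mul_of_nonneg_left h1 (by norm_num)
        _ = _ := by ring
  refine ⟨key, part2, ?_⟩
  intro d K hd hK A P hAP hA2 hPA s hsK hcell
  obtain ⟨x, hx, h1⟩ := part2 d (by omega) A P hAP hA2 hPA s hcell
  refine ⟨x, hx, ?_⟩
  set n : ℝ := (P.card : ℝ) with hn
  set c : ℕ := ((P.erase x).image (fun q => dist x q)).card with hc
  have hPA2 : 2 ≤ P.card := le_trans hA2 (Finset.card_le_card hAP)
  have hn2 : (2 : ℝ) ≤ n := by
    rw [hn]
    exact_mod_cast hPA2
  have hnpos : 0 < n := by linarith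
  have hdpos : (0 : ℝ) < d := by
    have : 0 < d := by omega
    exact_mod_cast this
  have hc1 : 1 ≤ c := by
    apply Finset.card_pos.mpr
    apply Finset.Nonempty.image
    apply Finset.card_pos.mp
    rw [Finset.card_erase_of_mem (hAP hx)]
    omega
  have hcR : (1 : ℝ) ≤ c := by exact_mod_cast hc1
  set t : ℝ := (c : ℝ) + 1 with ht
  have htpos : 0 < t := by linarith
  have ht2 : t ≤ 2 * c := by linarith
  set A₁ := n ^ (1 - 3 / (d : ℝ)) with hA₁
  set B := n ^ (2 / (d : ℝ)) with hB
  have hA₁pos : 0 < A₁ := Real.rpow_pos_of_pos hnpos _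
  have hBpos : 0 < B := Real.rpow_pos_of_pos hnpos _
  have hKpos : 0 < K := by linarith
  have hd3 : (3 : ℝ) ≤ d := by exact_mod_cast hd
  have hZ : (1 : ℝ) ≤ 286720 * d * K := by
    nlinarith
  have hmain : B ≤ 286720 * d * K * t := by
    rcases h1 with h1 | h1
    · -- first alternative
      have e1 : n = A₁ * n ^ (3 / (d : ℝ)) := by
        rw [hA₁, ← Real.rpow_add hnpos]
        have e3 : 1 - 3 / (d : ℝ) + 3 / (d : ℝ) = 1 := by ring
        rw [e3, Real.rpow_one]
      have h2 : B ≤ n ^ (3 / (d : ℝ)) := by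
        apply Real.rpow_le_rpow_of_exponent_le (by linarith)
        apply div_le_div_of_nonneg_right (by norm_num) hdpos.le
      have h3 : A₁ * n ^ (3 / (d : ℝ)) ≤ A₁ * (16 * K * t) := by
        rw [← e1]
        have h4 : (s : ℝ) * t ≤ (K * A₁) * t := mul_le_mul_of_nonneg_right hsK htpos.le
        nlinarith
      have h5 := le_of_mul_le_mul_left h3 hA₁pos
      have h6 : 16 * K * t ≤ 286720 * d * K * t := by
        have h7 : 0 ≤ K * t := mul_nonneg hKpos.le htpos.le
        nlinarith
      linarith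
    · -- second alternative
      have e2 : n ^ (1 + (d : ℝ)⁻¹) = A₁ * B ^ 2 := by
        rw [hA₁, hB, ← Real.rpow_natCast (n ^ (2 / (d : ℝ))) 2, ← Real.rpow_mul hnpos.le,
          ← Real.rpow_add hnpos]
        congr 1
        field_simp
        ring
      rw [e2] at h1
      have hZ0 : 0 ≤ 286720 * (d : ℝ) := by positivity
      have h3 : A₁ * B ^ 2 ≤ A₁ * (286720 * d * K * t ^ 2) := by
        calc A₁ * B ^ 2 ≤ 286720 * d * s * t ^ 2 := h1
          _ ≤ 286720 * d * (K * A₁) * t ^ 2 := by
              apply mul_le_mul_of_nonneg_right _ (by positivity)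
              exact mul_le_mul_of_nonneg_left hsK hZ0
          _ = _ := by ring
      have h5 := le_of_mul_le_mul_left h3 hA₁pos
      have h6 : B ^ 2 ≤ (286720 * d * K * t) ^ 2 := by
        have h7 : 0 ≤ t ^ 2 := by positivity
        calc B ^ 2 ≤ 286720 * d * K * t ^ 2 := h5
          _ = (286720 * d * K) * 1 * t ^ 2 := by ring
          _ ≤ (286720 * d * K) * (286720 * d * K) * t ^ 2 := by
              apply mul_le_mul_of_nonneg_right _ h7
              apply mul_le_mul_of_nonneg_left hZ (by linarith)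
          _ = _ := by ring
      by_contra hlt
      push Not at hlt
      have hZt : 0 ≤ 286720 * (d : ℝ) * K * t := by
        have : 0 ≤ 286720 * (d : ℝ) * K := by linarith
        exact mul_nonneg this htpos.le
      have h9 := pow_lt_pow_left₀ hlt hZt two_ne_zero
      linarith
  have h8 : 0 ≤ 286720 * (d : ℝ) * K := by linarith
  calc B ≤ 286720 * d * K * t := hmain
    _ ≤ 286720 * d * K * (2 * c) := mul_le_mul_of_nonneg_left ht2 h8
    _ = _ := by ring

end Vale.Agent.Results.P054.A_circle
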