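import Vale.Agent.Lib.P054.Lines

/-!
Sets on few parallel lines.
-/

open Finset

open scoped Classical

namespace Vale.Agent.Results.P054.C_lines

open Vale.Agent.Lib.P054

/-- First part, in any real inner product space: let `e` be a unit vector and let `q0` and all
`q ∈ Q` carry at least `m ≥ 2` points of the finite set `P` on their lines parallel to `e`.  Then
the number of distinct values of `‖q0 - q‖ ^ 2 - ⟪q0 - q, e⟫ ^ 2` (squared distance from `q0` to `q`
after projecting along `e`), times `m ^ 2`, is at most `512 (|Δ(P)| + 1) ^ 2`.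

Second part, in `ℝ³`: let `P` have `n` points on `u` vertical lines.  For `m ≥ 2` the number of
vertical lines holding at least `m` points of `P`, times `m ^ 4`, is at most
`2 ^ 19 (|Δ(P)| + 1) ^ 4`.

Third part: if `n ≥ 2 u`, then `n ^ 4 ≤ 2 ^ 80 u ^ 3 (|Δ(P)| + 1) ^ 4`. -/
theorem result {E : Type*} [NormedAddCommGroup E] [InnerProductSpace ℝ E] :
    (∀ (e : E), ‖e‖ = 1 → ∀ (Q : Finset E) (A : E → Finset ℝ) (P : Finset E) (q0 : E) (m : ℕ),
      2 ≤ m → (∀ q ∈ Q, m ≤ (A q).card) → m ≤ (A q0).card →
      (∀ q ∈ Q, ∀ x ∈ A q, q + x • e ∈ P) → (∀ x ∈ A q0, q0 + x • e ∈ P) →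
      (Q.image (fun q => ‖q0 - q‖ ^ 2 - (inner ℝ (q0 - q) e) ^ 2)).card * m ^ 2 ≤
        512 * ((distSet P).card + 1) ^ 2) ∧
    (∀ (P : Finset (EuclideanSpace ℝ (Fin 3))) (m : ℕ), 2 ≤ m →
      ((P.image (fun p => (p 0, p 1))).filter
        (fun b => m ≤ (P.filter (fun p => (p 0, p 1) = b)).card)).card * m ^ 4 ≤
        2 ^ 19 * ((distSet P).card + 1) ^ 4) ∧
    (∀ P : Finset (EuclideanSpace ℝ (Fin 3)), 2 * (P.image (fun p => (p 0, p 1))).card ≤ P.card →
      P.card ^ 4 ≤ 2 ^ 80 * ((P.image (fun p => (p 0, p 1))).card ^ 3 *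
        ((distSet P).card + 1) ^ 4)) := by
  refine ⟨?_, ?_, ?_⟩
  · intro e he Q A P q0 m hm hQ h0 hP hP0
    exact pinned_lines e he Q A P q0 m hm hQ h0 hP hP0
  · intro P m hm
    have h := rich_count P m hm
    refine le_trans (Nat.mul_le_mul_right _ ?_) h
    -- the two descriptions of the rich lines
    have key : ∀ b : E2, (P.filter (fun p => (p 0, p 1) = (b 0, b 1))).card = (fib P b).card := by
      intro b
      rw [card_fib]
      congr 1
      apply Finset.filter_congr
      intro p _
      constructor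
      · intro hh
        have hh' := Prod.mk.inj hh
        exact ext_E2 (by simpa using hh'.1) (by simpa using hh'.2)
      · intro hh
        rw [← hh]
        simp
    have hsub : ((P.image (fun p => (p 0, p 1))).filter
        (fun b => m ≤ (P.filter (fun p => (p 0, p 1) = b)).card)) ⊆
        (richBase P m).image (fun b : E2 => (b 0, b 1)) := by
      intro b hb
      have hb' := Finset.mem_filter.mp hb
      obtain ⟨p, hp, rfl⟩ := Finset.mem_image.mp hb'.1
      refine Finset.mem_image.mpr ⟨proj p, Finset.mem_filter.mpr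
        ⟨Finset.mem_image_of_mem _ hp, ?_⟩, by simp⟩
      have := key (proj p)
      simp only [proj_zero, proj_one] at this
      rw [← this]
      exact hb'.2
    exact le_trans (Finset.card_le_card hsub) Finset.card_image_le
  · intro P hn
    rw [card_image_proj] at hn ⊢
    have h := lines_bound P hn
    exact_mod_cast h

end Vale.Agent.Results.P054.C_lines
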