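import Vale.Agent.Lib.P054.Geo

/-!
Pinned distances for point sets with few points on the intersection of two spheres centred at
points of the set, in every dimension.
-/

open Finset

open scoped Classical

namespace Vale.Agent.Results.P054.D_circle_log

open Vale.Agent.Lib.P054

/-- Let `A ⊆ P` be finite subsets of `ℝ^d`, `|A| ≥ 2`, with `A` in a translate of a subspace `W` of
dimension `D ≥ 2`, and assume that for `a ≠ b` in `A` at most `s` points of `P` lie at prescribed
distances from both `a` and `b`.  Then some `x ∈ A` with `t = |D_x(P)| + 1`, where `D_x(P)` is the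
set of distances from `x` to the other points of `P`, has `|P| < 8 s t` or
`|A| ^ (1 / D) * |P| ≤ 10752 s t ^ 2 log |P|`.  In particular (second part, `A = P`, `D = d`) for
every `n`-point `P ⊂ ℝ^d` with `d ≥ 2`, some `x ∈ P` has `n < 8 s t` or
`n ^ (1 + 1 / d) ≤ 10752 s t ^ 2 log n`. -/
theorem result :
    (∀ (d D : ℕ), 2 ≤ D → ∀ (W : Submodule ℝ (EuclideanSpace ℝ (Fin d))),
      Module.finrank ℝ W = D → ∀ (a0 : EuclideanSpace ℝ (Fin d))
      (A P : Finset (EuclideanSpace ℝ (Fin d))), A ⊆ P → (∀ a ∈ A, a - a0 ∈ W) → 2 ≤ A.card →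
      ∀ s : ℕ, (∀ a ∈ A, ∀ b ∈ A, a ≠ b → ∀ r r' : ℝ,
        (P.filter (fun q => dist a q = r ∧ dist b q = r')).card ≤ s) →
      ∃ x ∈ A,
        (P.card : ℝ) < 8 * s * (((P.erase x).image (fun q => dist x q)).card + 1) ∨
        (A.card : ℝ) ^ ((D : ℝ)⁻¹) * P.card ≤
          10752 * s * (((P.erase x).image (fun q => dist x q)).card + 1) ^ 2 *
            Real.log P.card) ∧
    (∀ d : ℕ, 2 ≤ d → ∀ P : Finset (EuclideanSpace ℝ (Fin d)), 2 ≤ P.card →
      ∀ s : ℕ, (∀ a ∈ P, ∀ b ∈ P, a ≠ b → ∀ r r' : ℝ,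
        (P.filter (fun q => dist a q = r ∧ dist b q = r')).card ≤ s) →
      ∃ x ∈ P,
        (P.card : ℝ) < 8 * s * (((P.erase x).image (fun q => dist x q)).card + 1) ∨
        (P.card : ℝ) ^ (1 + (d : ℝ)⁻¹) ≤
          10752 * s * (((P.erase x).image (fun q => dist x q)).card + 1) ^ 2 *
            Real.log P.card) := by
  have key : ∀ (d D : ℕ), 2 ≤ D → ∀ (W : Submodule ℝ (EuclideanSpace ℝ (Fin d))),
      Module.finrank ℝ W = D → ∀ (a0 : EuclideanSpace ℝ (Fin d))
      (A P : Finset (EuclideanSpace ℝ (Fin d))), A ⊆ P → (∀ a ∈ A, a - a0 ∈ W) → 2 ≤ A.card →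
      ∀ s : ℕ, (∀ a ∈ A, ∀ b ∈ A, a ≠ b → ∀ r r' : ℝ,
        (P.filter (fun q => dist a q = r ∧ dist b q = r')).card ≤ s) →
      ∃ x ∈ A,
        (P.card : ℝ) < 8 * s * (((P.erase x).image (fun q => dist x q)).card + 1) ∨
        (A.card : ℝ) ^ ((D : ℝ)⁻¹) * P.card ≤
          10752 * s * (((P.erase x).image (fun q => dist x q)).card + 1) ^ 2 *
            Real.log P.card := by
    intro d D hD W hW a0 A P hAP hAW hm s hcell
    have hAne : A.Nonempty := Finset.card_pos.mp (by omega)
    obtain ⟨x, hx, hmax⟩ := Finset.exists_max_image A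
      (fun y => ((P.erase y).image (fun q => dist y q)).card) hAne
    refine ⟨x, hx, ?_⟩
    set h := ((P.erase x).image (fun q => dist x q)).card + 1 with hh
    have hs : 1 ≤ s := by
      obtain ⟨a, ha, b, hb, hab⟩ := Finset.one_lt_card.mp (by omega : 1 < A.card)
      have h1 := hcell a ha b hb hab (dist a a) (dist b a)
      have h2 : 0 < (P.filter (fun q => dist a q = dist a a ∧ dist b q = dist b a)).card :=
        Finset.card_pos.mpr ⟨a, Finset.mem_filter.mpr ⟨hAP ha, rfl, rfl⟩⟩
      omega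
    have hcell' : ∀ a ∈ A, ∀ b ∈ A, a ≠ b → ∀ r r' : ℝ,
        (P.filter (fun q => ‖a - q‖ ^ 2 = r ∧ ‖b - q‖ ^ 2 = r')).card ≤ s := by
      intro a ha b hb hab r r'
      refine le_trans (Finset.card_le_card ?_) (hcell a ha b hb hab (Real.sqrt r) (Real.sqrt r'))
      intro q hq
      obtain ⟨h1, h2, h3⟩ := Finset.mem_filter.mp hq
      refine Finset.mem_filter.mpr ⟨h1, ?_, ?_⟩
      · rw [← h2, Real.sqrt_sq (norm_nonneg _), dist_eq_norm]
      · rw [← h3, Real.sqrt_sq (norm_nonneg _), dist_eq_norm]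
    have hpin : ∀ a ∈ A, (pinSet P a).card ≤ h := by
      intro a ha
      have h1 : (pinSet P a).card ≤ ((P.erase a).image (fun q => dist a q)).card + 1 := by
        refine le_trans (card_pinSet_le_G P a) (Nat.add_le_add_right (Finset.card_le_card ?_) 1)
        intro y hy
        simp only [Finset.mem_image, Finset.mem_erase] at hy ⊢
        obtain ⟨q, hq, rfl⟩ := hy
        exact ⟨q, hq, by rw [dist_eq_norm, norm_sub_rev]⟩
      have h2 := hmax a ha
      omega
    by_cases hbig : 8 * s * h ≤ P.card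
    · right
      have hmain := flat_main W D hD hW.le a0 A P hAP hAW hm s h hs hcell' hpin hbig
      have e : ((h : ℕ) : ℝ) = (((P.erase x).image (fun q => dist x q)).card : ℝ) + 1 := by
        rw [hh]
        push_cast
        ring
      rw [e] at hmain
      exact hmain
    · left
      have h1 : P.card < 8 * s * h := not_le.mp hbig
      have h2 : (P.card : ℝ) < ((8 * s * h : ℕ) : ℝ) := by exact_mod_cast h1
      rw [hh] at h2
      push_cast at h2
      exact h2
  refine ⟨key, ?_⟩
  intro d hd P hP s hcell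
  have hW : Module.finrank ℝ (⊤ : Submodule ℝ (EuclideanSpace ℝ (Fin d))) = d := by
    rw [finrank_top, finrank_euclideanSpace, Fintype.card_fin]
  obtain ⟨x, hx, h1⟩ := key d d hd ⊤ hW 0 P P subset_rfl (fun a _ => Submodule.mem_top) hP s hcell
  refine ⟨x, hx, ?_⟩
  rcases h1 with h1 | h1
  · exact Or.inl h1
  · right
    have hn : (0 : ℝ) < P.card := by
      have : 0 < P.card := by omega
      exact_mod_cast this
    rw [add_comm, Real.rpow_add hn, Real.rpow_one]
    exact h1

end Vale.Agent.Results.P054.D_circle_log
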