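import Vale.Agent.Lib.P054.Main

namespace Vale.Agent.Results.P054.D_parallel_lines

/-- Let `d ≥ 3`, let `P` be a finite set of `n ≥ 2` points of `ℝ^d` and `v` a unit vector, and let
`k` be the number of lines parallel to `v` that meet `P` (the number of values of
`p ↦ p - ⟪v, p⟫ v` on `P`). Then some `x ∈ P` sees at least
`(1 / 240) * min (n ^ (2 / d), (n / k) ^ (7 / 6))` distinct distances to the other points. -/
theorem result (d : ℕ) (hd : 3 ≤ d) (P : Finset (EuclideanSpace ℝ (Fin d)))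
    (v : EuclideanSpace ℝ (Fin d)) (hv : ‖v‖ = 1) (hP : 2 ≤ P.card) :
    ∃ x ∈ P, (1 / 240 : ℝ) * min ((P.card : ℝ) ^ (2 / (d : ℝ)))
        (((P.card : ℝ) / ((P.image (fun p => p - (inner ℝ v p) • v)).card : ℝ)) ^ (7 / 6 : ℝ)) ≤
      (((P.erase x).image (fun y => ‖y - x‖)).card : ℝ) :=
  Vale.Agent.Lib.P054.main_bound hd P v hv hP

end Vale.Agent.Results.P054.D_parallel_lines
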